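import Vale.Agent.P134.H821.Geo
import Vale.Agent.P134.SM.Nu

set_option linter.all false

/-! The geometric cut lemma in coordinates, nearest points of level sets. -/

namespace Vale.Agent.P134.H821

open Vale.Agent.P134 Vale.Agent.P134.SM Filter Topology Metric
open scoped InnerProductSpace

variable {n : ℕ} {φ : (Fin n → ℝ) → ℝ}

/-- Euclidean space. -/
abbrev EU (n : ℕ) := EuclideanSpace ℝ (Fin n)

lemma eno_eq_norm (v : Fin n → ℝ) : eno v = ‖(WithLp.toLp 2 v : EU n)‖ := by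
  rw [EuclideanSpace.norm_eq]; unfold eno esq; simp

lemma eno_add_le (v w : Fin n → ℝ) : eno (v + w) ≤ eno v + eno w := by
  rw [eno_eq_norm, eno_eq_norm, eno_eq_norm, WithLp.toLp_add]
  exact norm_add_le _ _

lemma eno_smul (a : ℝ) (v : Fin n → ℝ) : eno (a • v) = |a| * eno v := by
  rw [eno_eq_norm, eno_eq_norm, WithLp.toLp_smul, norm_smul, Real.norm_eq_abs]

lemma eno_neg (v : Fin n → ℝ) : eno (-v) = eno v := by
  rw [eno_eq_norm, eno_eq_norm, WithLp.toLp_neg, norm_neg]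

lemma eno_sub_comm (v w : Fin n → ℝ) : eno (v - w) = eno (w - v) := by
  rw [← eno_neg (v - w), neg_sub]

lemma eno_sub_le (v w z : Fin n → ℝ) : eno (v - z) ≤ eno (v - w) + eno (w - z) := by
  have := eno_add_le (v - w) (w - z)
  rwa [sub_add_sub_cancel] at this

lemma eno_eq_zero {v : Fin n → ℝ} : eno v = 0 ↔ v = 0 := by
  rw [eno_eq_norm, norm_eq_zero, WithLp.toLp_eq_zero]

/-- The gradient. -/
noncomputable def gr (φ : (Fin n → ℝ) → ℝ) (y : Fin n → ℝ) : Fin n → ℝ := fun i => pd i φ y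

lemma hasFDerivAt_eu (hφ : Differentiable ℝ φ) (y : EU n) :
    HasFDerivAt (fun z : EU n => φ (WithLp.ofLp z))
      (innerSL ℝ (WithLp.toLp 2 (gr φ (WithLp.ofLp y)) : EU n)) y := by
  have h1 := (hφ (WithLp.ofLp y)).hasFDerivAt
  have h2 : HasFDerivAt (fun z : EU n => (WithLp.ofLp z : Fin n → ℝ))
      ((EuclideanSpace.equiv (Fin n) ℝ).toContinuousLinearMap) y :=
    (EuclideanSpace.equiv (Fin n) ℝ).toContinuousLinearMap.hasFDerivAt
  have h3 := h1.comp y h2
  refine h3.congr_fderiv ?_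
  apply ContinuousLinearMap.ext
  intro v
  rw [innerSL_apply_apply, PiLp.inner_apply]
  have h4 : (fderiv ℝ φ (WithLp.ofLp y) ∘SL (EuclideanSpace.equiv (Fin n) ℝ).toContinuousLinearMap) v
      = fderiv ℝ φ (WithLp.ofLp y) (WithLp.ofLp v) := rfl
  rw [h4, fderiv_eq_sum_pd]
  exact Finset.sum_congr rfl fun i _ => by simp [gr]

lemma contDiff_eu (hφ : ContDiff ℝ 1 φ) : ContDiff ℝ 1 (fun z : EU n => φ (WithLp.ofLp z)) :=
  hφ.comp (EuclideanSpace.equiv (Fin n) ℝ).toContinuousLinearMap.contDiff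

/-- **Unique nearest point** in coordinates. -/
theorem nearest_unique_coord (hφ : ContDiff ℝ 1 φ) {x e : Fin n → ℝ} {r g K : ℝ}
    (he : eno e = 1) (hg : 0 ≤ g) (hGx : gr φ x = g • e)
    (ha : ∀ x2, φ x2 = φ x → eno (x2 - (x + r • e)) ≤ |r| → ∀ a ∈ Set.Icc (0:ℝ) 1,
      eno (gr φ (x + a • (x2 - x)) - e) ≤ 1 / (8 * (1 + |r|)))
    (hb : ∀ y, eno (y - x) ≤ 1 → eno (gr φ y - gr φ x) ≤ K * eno (y - x))
    (hK : K * (1 + |r|) ≤ 1 / 16) {y : Fin n → ℝ} (hy : φ y = φ x) :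
    |r| ≤ eno (y - (x + r • e)) ∧ (eno (y - (x + r • e)) = |r| → y = x) := by
  have key := nearest_unique (E := EU n) (φ := fun z => φ (WithLp.ofLp z))
    (G := fun z => WithLp.toLp 2 (gr φ (WithLp.ofLp z))) (contDiff_eu hφ)
    (hasFDerivAt_eu (hφ.differentiable (by norm_num))) (x := WithLp.toLp 2 x)
    (n := WithLp.toLp 2 e) (r := r) (g := g) (K := K) (by rw [← eno_eq_norm, he]) hg
    (by simp only [WithLp.ofLp_toLp]; rw [hGx, WithLp.toLp_smul]) ?_ ?_ hK
    (y := WithLp.toLp 2 y) (by simpa using hy)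
  · rw [← WithLp.toLp_smul, ← WithLp.toLp_add, ← WithLp.toLp_sub, ← eno_eq_norm] at key
    exact ⟨key.1, fun h => by simpa using key.2 h⟩
  · intro x2 h2 h3 y hy
    obtain ⟨a, b, ha0, hb0, hab, rfl⟩ := hy
    have h4 := ha (WithLp.ofLp x2) (by simpa using h2)
      (by rw [eno_eq_norm, WithLp.toLp_sub, WithLp.toLp_add, WithLp.toLp_smul]; simpa using h3)
      b ⟨hb0, by linarith⟩
    have h5 : x + b • (WithLp.ofLp x2 - x)
        = WithLp.ofLp (a • (WithLp.toLp 2 x : EU n) + b • x2) := by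
      have ha' : a = 1 - b := by linarith
      simp only [WithLp.ofLp_add, WithLp.ofLp_smul, WithLp.ofLp_toLp]
      rw [ha', sub_smul, one_smul, smul_sub]; abel
    rw [h5, eno_eq_norm, WithLp.toLp_sub] at h4
    exact h4
  · intro y hy
    have h6 := hb (WithLp.ofLp y) (by rw [eno_eq_norm, WithLp.toLp_sub]; simpa using hy)
    rw [eno_eq_norm, eno_eq_norm, WithLp.toLp_sub, WithLp.toLp_sub] at h6
    simpa using h6

/-- **Nearest points exist** and are critical: `z - x` is parallel to the gradient. -/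
theorem near_coord (hφ : ContDiff ℝ 1 φ) {z : Fin n → ℝ} {c L : ℝ}
    (hne : ∃ y, φ y = c ∧ eno (y - z) ≤ L)
    (h0 : ∀ x, φ x = c → eno (x - z) ≤ L → gr φ x ≠ 0) :
    ∃ (x : Fin n → ℝ) (s : ℝ), φ x = c ∧ z = x + s • gr φ x ∧ eno (x - z) ≤ L ∧
      ∀ y, φ y = c → eno (x - z) ≤ eno (y - z) := by
  obtain ⟨y0, hy0, hyL⟩ := hne
  have hcl : IsClosed {y : EU n | φ (WithLp.ofLp y) = c} :=
    isClosed_eq (contDiff_eu hφ).continuous continuous_const
  obtain ⟨x2, h2, hdist⟩ := hcl.exists_infDist_eq_dist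
    ⟨WithLp.toLp 2 y0, by simpa using hy0⟩ (WithLp.toLp 2 z)
  have hmin : ∀ y, φ y = c → eno (WithLp.ofLp x2 - z) ≤ eno (y - z) := by
    intro y hy
    rw [eno_eq_norm, eno_eq_norm, WithLp.toLp_sub, WithLp.toLp_sub, WithLp.toLp_ofLp,
      ← dist_eq_norm, ← dist_eq_norm, dist_comm x2, dist_comm (WithLp.toLp 2 y), ← hdist]
    exact infDist_le_dist_of_mem (by simpa using hy)
  have hL : eno (WithLp.ofLp x2 - z) ≤ L := (hmin y0 hy0).trans hyL
  have h3 : φ (WithLp.ofLp x2) = c := h2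
  obtain ⟨s, hs⟩ := lagrange (contDiff_eu hφ)
    (hasFDerivAt_eu (hφ.differentiable (by norm_num))) (x2 := x2) (z := WithLp.toLp 2 z)
    (by
      intro y hy
      have h5 := hmin (WithLp.ofLp y) (by rw [hy]; exact h3)
      rw [eno_eq_norm, eno_eq_norm, WithLp.toLp_sub, WithLp.toLp_sub] at h5
      simpa using h5)
    (by
      intro h
      rw [WithLp.toLp_eq_zero] at h
      exact h0 _ h3 hL h)
  refine ⟨WithLp.ofLp x2, s, h3, ?_, hL, hmin⟩
  have h6 := congrArg WithLp.ofLp hs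
  simp only [WithLp.ofLp_sub, WithLp.ofLp_toLp, WithLp.ofLp_smul] at h6
  rw [← h6]; abel

end Vale.Agent.P134.H821
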