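import Vale.Agent.P134.H821.Inj
import Vale.Agent.P134.H283.Inter

set_option linter.all false

/-! INJ and NEAR: final forms for package R3. -/

namespace Vale.Agent.P134.H821

open Vale.Agent.P134 Vale.Agent.P134.SM Vale.Agent.P134.LI MeasureTheory Filter Topology

variable {u : R3 → ℝ} {x y z e : R3} {i j q : Fin 3} {s t r : ℝ}

theorem farB : FarB (1 / H283.cY 3 2) := by
  intro u hu e he x y
  have h := H283.yukawa_Vd (n := 3) (m := 2) (by norm_num) hu he x y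
  have hc := H283.cY_pos 3 2
  have hn := eno_nonneg (y - x)
  have hE := Real.exp_pos (Real.sqrt 2 * eno (y - x))
  have h1 : H283.cY 3 2 * (Real.exp (-(Real.sqrt 2 * eno (y - x))) / (1 + eno (y - x)) ^ 2)
      * H283.Vd e u y * ((1 + eno (y - x)) ^ 2 * Real.exp (Real.sqrt 2 * eno (y - x)))
      = H283.cY 3 2 * H283.Vd e u y := by
    rw [Real.exp_neg]
    field_simp
  have h2 := mul_le_mul_of_nonneg_right h
    (show 0 ≤ (1 + eno (y - x)) ^ 2 * Real.exp (Real.sqrt 2 * eno (y - x)) by positivity)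
  rw [h1] at h2
  rw [one_div, inv_mul_eq_div, div_mul_eq_mul_div, div_mul_eq_mul_div, le_div_iff₀ hc]
  linarith

/-- Geometric bounds where `q (1+|t|)^4 e^{2√2|t|}` is small. -/
theorem jj_bounds : ∃ C : ℝ, 1 ≤ C ∧ ∀ u : R3 → ℝ, Sol u → (∀ x, |u x| < 1) → ∀ (x : R3) (t : ℝ),
    C * (1 + |t|) ^ 2 * qq u x ≤ 1 →
    1 / 2 ≤ rr u x ∧ 1 / 2 ≤ jj u x t ∧ jj u x t ≤ 2 := by
  obtain ⟨C, hC1, hC⟩ := H283.exists_geom_bound
  refine ⟨100 * C ^ 2, by nlinarith, fun u hu hl x t h => ?_⟩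
  obtain ⟨h1, h2, -, -⟩ := hC u hu hl x
  have hq := H283.qq_nonneg hu hl x
  have ht := abs_nonneg t
  have hT : 1 ≤ (1 + |t|) ^ 2 := one_le_pow₀ (by linarith)
  have hCC : C ≤ C ^ 2 := by nlinarith
  have hq1 : 100 * C ^ 2 * qq u x ≤ 1 := by
    refine le_trans ?_ h
    have : 100 * C ^ 2 * (1 + |t|) ^ 2 * qq u x = 100 * C ^ 2 * qq u x * (1 + |t|) ^ 2 := by ring
    rw [this]
    exact le_mul_of_one_le_right (by positivity) hT
  have hq2 : qq u x ≤ 1 / 100 := by nlinarith [mul_nonneg (show (0:ℝ) ≤ C ^ 2 - 1 by nlinarith) hq]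
  have hr : 1 / 2 ≤ rr u x := H283.rr_ge_half (by linarith)
  have hr2 : 1 / 4 ≤ rr u x ^ 2 := by nlinarith
  have hh1 : |hh u x| ≤ 4 * C * qq u x := by
    have := mul_le_mul_of_nonneg_right hr2 (abs_nonneg (hh u x))
    linarith
  have ha0 : 0 ≤ a2 u x := Finset.sum_nonneg fun _ _ => Finset.sum_nonneg fun _ _ => sq_nonneg _
  have ha1 : a2 u x ≤ 4 * C * qq u x := by
    have := mul_le_mul_of_nonneg_right hr2 ha0
    linarith
  have hk : |kk u x| ≤ 4 * C ^ 2 * qq u x := by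
    unfold kk
    rw [abs_div, abs_of_pos (by norm_num : (0:ℝ) < 2), div_le_iff₀ (by norm_num)]
    have e1 : hh u x ^ 2 ≤ (4 * C * qq u x) * (1 / 5) := by
      rw [← sq_abs]
      have e2 : |hh u x| ≤ 1 / 5 := by
        refine hh1.trans ?_
        nlinarith
      have := mul_le_mul hh1 e2 (abs_nonneg _) (by positivity)
      rw [sq]; exact this
    rw [abs_le]
    constructor
    · have := sq_nonneg (hh u x); nlinarith
    · nlinarith
  have hj : |jj u x t - 1| ≤ 1 / 2 := by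
    have e3 : jj u x t - 1 = t * hh u x + t ^ 2 * kk u x := by unfold jj; ring
    rw [e3]
    refine (abs_add_le _ _).trans ?_
    rw [abs_mul, abs_mul, abs_of_nonneg (sq_nonneg t)]
    have e4 : |t| ≤ (1 + |t|) ^ 2 := by nlinarith
    have e5 : t ^ 2 ≤ (1 + |t|) ^ 2 := by rw [← sq_abs t]; exact pow_le_pow_left₀ ht (by linarith) 2
    have e6 : |t| * |hh u x| ≤ (1 + |t|) ^ 2 * (4 * C * qq u x) :=
      mul_le_mul e4 hh1 (abs_nonneg _) (by positivity)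
    have e7 : t ^ 2 * |kk u x| ≤ (1 + |t|) ^ 2 * (4 * C ^ 2 * qq u x) :=
      mul_le_mul e5 hk (abs_nonneg _) (by positivity)
    have e8 : (1 + |t|) ^ 2 * (4 * C * qq u x) ≤ (1 + |t|) ^ 2 * (4 * C ^ 2 * qq u x) := by
      apply mul_le_mul_of_nonneg_left _ (by positivity)
      apply mul_le_mul_of_nonneg_right _ hq
      linarith
    nlinarith
  have := abs_le.mp hj
  exact ⟨hr, by linarith [this.1], by linarith [this.2]⟩

/-- **INJ + CUT.** -/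
theorem cut (s3 : ℝ) : ∃ C : ℝ, 1 ≤ C ∧ ∀ u : R3 → ℝ, Sol u → (∀ x, |u x| < 1) →
    ∀ (x : R3) (t : ℝ), |phi u x| ≤ s3 →
    C * (1 + |t|) ^ 4 * Real.exp (2 * Real.sqrt 2 * |t|) * qq u x ≤ 1 →
    1 / 2 ≤ rr u x ∧ 1 / 2 ≤ jj u x t ∧ jj u x t ≤ 2 ∧
    ∀ y, phi u y = phi u x → |t| ≤ eno (y - xt u x t) ∧ (eno (y - xt u x t) = |t| → y = x) := by
  obtain ⟨C1, h1, hC1⟩ := jj_bounds
  have hc := H283.cY_pos 3 2
  have h0 : (0:ℝ) ≤ 1 / H283.cY 3 2 := by positivity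
  have h2 := cU_pos h0 s3
  refine ⟨C1 + cU (1 / H283.cY 3 2) s3, by linarith, fun u hu hl x t hx h => ?_⟩
  have hq := H283.qq_nonneg hu hl x
  have ht := abs_nonneg t
  have hE : 1 ≤ Real.exp (2 * Real.sqrt 2 * |t|) := Real.one_le_exp (by positivity)
  have hT : 1 ≤ (1 + |t|) := by linarith
  have hX : 0 ≤ (1 + |t|) ^ 4 * Real.exp (2 * Real.sqrt 2 * |t|) * qq u x := by positivity
  have e1 : cU (1 / H283.cY 3 2) s3 * (1 + |t|) ^ 4 * Real.exp (2 * Real.sqrt 2 * |t|) * qq u x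
      ≤ 1 := by nlinarith
  have e2 : C1 * (1 + |t|) ^ 2 * qq u x ≤ 1 := by
    have e3 : (1 + |t|) ^ 2 ≤ (1 + |t|) ^ 4 * Real.exp (2 * Real.sqrt 2 * |t|) := by
      have : (1 + |t|) ^ 2 ≤ (1 + |t|) ^ 4 := pow_le_pow_right₀ hT (by norm_num)
      nlinarith [pow_pos (lt_of_lt_of_le one_pos hT) 4]
    have e4 : (1 + |t|) ^ 2 * qq u x ≤ (1 + |t|) ^ 4 * Real.exp (2 * Real.sqrt 2 * |t|) * qq u x :=
      mul_le_mul_of_nonneg_right e3 hq
    nlinarith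
  obtain ⟨f1, f2, f3⟩ := hC1 u hu hl x t e2
  exact ⟨f1, f2, f3, (unique_nearest h0 farB hu hl hx e1).2⟩

lemma eno_sub_xt (h : 0 < rr u x) (t : ℝ) : eno (x - xt u x t) = |t| := by
  rw [xt_eq, sub_add_cancel_left, eno_neg, eno_smul, nn_unit' h, mul_one]

/-- **INJ**: injectivity of `(x, t) ↦ (x + t n(x), φ(x))`. -/
theorem inj_of_cut {M : Set (R3 × ℝ)}
    (hM : ∀ z ∈ M, 0 < rr u z.1 ∧ ∀ y, phi u y = phi u z.1 →
      |z.2| ≤ eno (y - xt u z.1 z.2) ∧ (eno (y - xt u z.1 z.2) = |z.2| → y = z.1)) :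
    Set.InjOn (fun z : R3 × ℝ => (xt u z.1 z.2, phi u z.1)) M := by
  rintro ⟨x, t⟩ hxM ⟨y, s⟩ hyM h
  obtain ⟨hrx, hX⟩ := hM _ hxM
  obtain ⟨hry, hY⟩ := hM _ hyM
  simp only [Prod.mk.injEq] at h hrx hry hX hY
  obtain ⟨h1, h2⟩ := h
  have e1 : |t| ≤ |s| := by
    have := (hX y h2.symm).1
    rw [h1, eno_sub_xt hry s] at this
    exact this
  have e2 : |s| ≤ |t| := by
    have := (hY x h2).1
    rw [← h1, eno_sub_xt hrx t] at this
    exact this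
  have e3 : |s| = |t| := le_antisymm e2 e1
  have hyx : y = x := (hX y h2.symm).2 (by rw [h1, eno_sub_xt hry s, e3])
  subst hyx
  refine Prod.ext rfl ?_
  rw [xt_eq, xt_eq] at h1
  have h3 : (t - s) • nn u y = 0 := by
    rw [sub_smul, sub_eq_zero]; exact add_left_cancel h1
  rcases smul_eq_zero.mp h3 with h4 | h4
  · exact sub_eq_zero.mp h4
  · exfalso
    have := nn_unit' hrx
    rw [h4] at this
    simp [eno, esq] at this

/-- The form with `e^{2√2|t|} q ≤ L^{-5}`, `|t| ≤ L`. -/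
theorem injL (s3 : ℝ) : ∃ L0 : ℝ, 1 ≤ L0 ∧ ∀ L : ℝ, L0 ≤ L → ∀ u : R3 → ℝ, Sol u →
    (∀ x, |u x| < 1) →
    (∀ (x : R3) (t : ℝ), |phi u x| ≤ s3 → |t| ≤ L →
      Real.exp (2 * Real.sqrt 2 * |t|) * qq u x ≤ (L ^ 5)⁻¹ →
      1 / 2 ≤ rr u x ∧ 1 / 2 ≤ jj u x t ∧ jj u x t ≤ 2 ∧
      ∀ y, phi u y = phi u x →
        |t| ≤ eno (y - xt u x t) ∧ (eno (y - xt u x t) = |t| → y = x)) ∧
    Set.InjOn (fun z : R3 × ℝ => (xt u z.1 z.2, phi u z.1))
      {z | |phi u z.1| ≤ s3 ∧ |z.2| ≤ L ∧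
        Real.exp (2 * Real.sqrt 2 * |z.2|) * qq u z.1 ≤ (L ^ 5)⁻¹} := by
  obtain ⟨C, hC1, hC⟩ := cut s3
  refine ⟨16 * C, by linarith, fun L hL u hu hl => ?_⟩
  have hL1 : 1 ≤ L := by linarith
  have key : ∀ (x : R3) (t : ℝ), |phi u x| ≤ s3 → |t| ≤ L →
      Real.exp (2 * Real.sqrt 2 * |t|) * qq u x ≤ (L ^ 5)⁻¹ →
      1 / 2 ≤ rr u x ∧ 1 / 2 ≤ jj u x t ∧ jj u x t ≤ 2 ∧
      ∀ y, phi u y = phi u x →
        |t| ≤ eno (y - xt u x t) ∧ (eno (y - xt u x t) = |t| → y = x) := by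
    intro x t hx ht h
    have hq := H283.qq_nonneg hu hl x
    apply hC u hu hl x t hx
    have ht0 := abs_nonneg t
    have e1 : (1 + |t|) ^ 4 ≤ 16 * L ^ 4 := by
      have : (1 + |t|) ^ 4 ≤ (2 * L) ^ 4 := pow_le_pow_left₀ (by linarith) (by linarith) 4
      refine this.trans (le_of_eq (by ring))
    have e2 : C * (1 + |t|) ^ 4 * Real.exp (2 * Real.sqrt 2 * |t|) * qq u x
        = C * (1 + |t|) ^ 4 * (Real.exp (2 * Real.sqrt 2 * |t|) * qq u x) := by ring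
    rw [e2]
    calc C * (1 + |t|) ^ 4 * (Real.exp (2 * Real.sqrt 2 * |t|) * qq u x)
        ≤ C * (16 * L ^ 4) * (L ^ 5)⁻¹ := by
          apply mul_le_mul _ h (by positivity) (by positivity)
          exact mul_le_mul_of_nonneg_left e1 (by linarith)
      _ = 16 * C / L := by
          have : L ≠ 0 := by positivity
          field_simp
      _ ≤ 1 := by rw [div_le_one (by positivity)]; exact hL
  refine ⟨key, inj_of_cut ?_⟩
  rintro ⟨x, t⟩ ⟨h1, h2, h3⟩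
  obtain ⟨k1, -, -, k4⟩ := key x t h1 h2 h3
  exact ⟨by simp only; linarith, k4⟩

/-- **INJ**, with the power `(1+|t|)^4`. -/
theorem injK (s3 : ℝ) : ∃ K : ℝ, 1 ≤ K ∧ ∀ u : R3 → ℝ, Sol u → (∀ x, |u x| < 1) →
    Set.InjOn (fun z : R3 × ℝ => (xt u z.1 z.2, phi u z.1))
      {z : R3 × ℝ | |phi u z.1| ≤ s3 ∧
        K * (1 + |z.2|) ^ 4 * Real.exp (2 * Real.sqrt 2 * |z.2|) * qq u z.1 ≤ 1} := by
  obtain ⟨K, hK1, hK⟩ := cut s3
  refine ⟨K, hK1, fun u hu hl => inj_of_cut ?_⟩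
  rintro ⟨x, t⟩ ⟨h1, h2⟩
  obtain ⟨k1, -, -, k4⟩ := hK u hu hl x t h1 h2
  exact ⟨by simp only; linarith, k4⟩

end Vale.Agent.P134.H821
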