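import Vale.Agent.P134.MathlibUsed
attribute [-instance] ProperSMul.toContinuousSMul IsTopologicalTorsor.toContinuousSMul IdemSemiring.toCanonicallyOrderedAdd IdemSemiring.toMulLeftMono IdemSemiring.toMulRightMono AddQuantale.instAddLeftMono AddQuantale.instAddRightMono Quantale.instMulLeftMono Quantale.instMulRightMono FiniteDimensional.rclike_to_real IsScalarTower.complexToReal FiniteDimensional.complexToReal

set_option linter.all false

/-! The cut point lemma, geometric part: if the gradient of `φ` is close to the unit vector `n`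
(relative to `1 / (1 + |r|)`) where it matters and Lipschitz with a small constant near `x`, then
`x` is the unique nearest point of its level set to `x + r n`. -/

namespace Vale.Agent.P134.H821

open Filter Topology Metric
open scoped InnerProductSpace

section abs

variable {E : Type*} [NormedAddCommGroup E] [InnerProductSpace ℝ E] [CompleteSpace E]
  {φ : E → ℝ} {G : E → E}

/-- Mean value estimate along a segment. -/
lemma mv_seg (hG : ∀ y, HasFDerivAt φ (innerSL ℝ (G y)) y) {x x2 v : E} {c : ℝ}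
    (h : ∀ y ∈ segment ℝ x x2, ‖G y - v‖ ≤ c) :
    |φ x2 - φ x - ⟪v, x2 - x⟫_ℝ| ≤ c * ‖x2 - x‖ := by
  have h1 := (convex_segment x x2).norm_image_sub_le_of_norm_hasFDerivWithin_le'
    (f := φ) (f' := fun y => innerSL ℝ (G y)) (C := c) (φ := innerSL ℝ v)
    (fun y hy => (hG y).hasFDerivWithinAt) ?_ (left_mem_segment ℝ x x2)
    (right_mem_segment ℝ x x2)
  · simpa only [Real.norm_eq_abs, innerSL_apply_apply] using h1
  · intro y hy
    rw [← map_sub, innerSL_apply_norm]
    exact h y hy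

/-- A nearest point of a level set is a critical point: `z - x2` is parallel to the gradient. -/
lemma lagrange (hφ : ContDiff ℝ 1 φ) (hG : ∀ y, HasFDerivAt φ (innerSL ℝ (G y)) y) {x2 z : E}
    (hmin : ∀ y, φ y = φ x2 → ‖x2 - z‖ ≤ ‖y - z‖) (h0 : G x2 ≠ 0) :
    ∃ s : ℝ, z - x2 = s • G x2 := by
  have hex : IsLocalExtrOn (fun y => ‖y - z‖ ^ 2) {y | φ y = φ x2} x2 := by
    refine Or.inl ?_
    filter_upwards [self_mem_nhdsWithin] with y hy
    exact pow_le_pow_left₀ (norm_nonneg _) (hmin y hy) 2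
  have h1 : HasStrictFDerivAt φ (innerSL ℝ (G x2)) x2 := by
    have := (hφ.contDiffAt (x := x2)).hasStrictFDerivAt (by norm_num)
    rwa [(hG x2).fderiv] at this
  have h2 : HasStrictFDerivAt (fun y : E => ‖y - z‖ ^ 2) (2 • innerSL ℝ (x2 - z)) x2 := by
    have h3 := (hasStrictFDerivAt_norm_sq (x2 - z)).comp x2
      ((hasStrictFDerivAt_id (𝕜 := ℝ) x2).sub_const z)
    simpa using h3
  obtain ⟨a, b, hab, h⟩ := hex.exists_multipliers_of_hasStrictFDerivAt_1d h1 h2
  have hv : a • G x2 + (2 * b) • (x2 - z) = 0 := by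
    have h4 : ∀ w : E, ⟪a • G x2 + (2 * b) • (x2 - z), w⟫_ℝ = 0 := by
      intro w
      have h5 := congrArg (fun L : E →L[ℝ] ℝ => L w) h
      simp only [add_apply, FunLike.coe_smul, Pi.smul_apply, smul_eq_mul,
        innerSL_apply_apply, zero_apply, two_smul] at h5
      rw [inner_add_left, inner_smul_left, inner_smul_left]
      simp only [conj_trivial]
      linarith
    exact inner_self_eq_zero.mp (h4 _)
  have hb : b ≠ 0 := by
    intro hb
    rw [hb, mul_zero, zero_smul, add_zero, smul_eq_zero] at hv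
    rcases hv with hv | hv
    · exact hab (by rw [hv, hb]; rfl)
    · exact h0 hv
  refine ⟨a / (2 * b), ?_⟩
  have hb2 : (2 * b) ≠ 0 := by positivity
  have h6 : (2 * b) • (z - x2) = a • G x2 := by
    have : (2 * b) • (z - x2) = - ((2 * b) • (x2 - z)) := by rw [← smul_neg, neg_sub]
    rw [this]
    exact (eq_neg_of_add_eq_zero_left hv).symm
  rw [div_eq_inv_mul, mul_smul, ← h6, smul_smul, inv_mul_cancel₀ hb2, one_smul]

/-- **Unique nearest point.** -/
theorem nearest_unique [FiniteDimensional ℝ E] (hφ : ContDiff ℝ 1 φ)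
    (hG : ∀ y, HasFDerivAt φ (innerSL ℝ (G y)) y) {x n : E} {r g K : ℝ} (hn : ‖n‖ = 1)
    (hg : 0 ≤ g) (hGx : G x = g • n)
    (ha : ∀ x2, φ x2 = φ x → ‖x2 - (x + r • n)‖ ≤ |r| → ∀ y ∈ segment ℝ x x2,
      ‖G y - n‖ ≤ 1 / (8 * (1 + |r|)))
    (hb : ∀ y, ‖y - x‖ ≤ 1 → ‖G y - G x‖ ≤ K * ‖y - x‖) (hK : K * (1 + |r|) ≤ 1 / 16)
    {y : E} (hy : φ y = φ x) :
    |r| ≤ ‖y - (x + r • n)‖ ∧ (‖y - (x + r • n)‖ = |r| → y = x) := by
  set z : E := x + r • n with hz
  have hr : 0 ≤ |r| := abs_nonneg r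
  have hxz : ‖x - z‖ = |r| := by
    rw [hz, sub_add_cancel_left, norm_neg, norm_smul, hn, mul_one, Real.norm_eq_abs]
  have hgn : |g - 1| ≤ 1 / 8 := by
    have h1 := ha x rfl (le_of_eq hxz) x (left_mem_segment ℝ x x)
    rw [hGx] at h1
    have h2 : g • n - n = (g - 1) • n := by rw [sub_smul, one_smul]
    rw [h2, norm_smul, hn, mul_one, Real.norm_eq_abs] at h1
    refine h1.trans ?_
    rw [div_le_div_iff₀ (by positivity) (by norm_num)]
    linarith
  -- a nearest point equals x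
  have key : ∀ x2, φ x2 = φ x → (∀ y, φ y = φ x → ‖x2 - z‖ ≤ ‖y - z‖) → x2 = x := by
    intro x2 h2 hmin
    have hle : ‖x2 - z‖ ≤ |r| := by rw [← hxz]; exact hmin x rfl
    have hc := ha x2 h2 hle
    have hG2 : ‖G x2 - n‖ ≤ 1 / (8 * (1 + |r|)) := hc x2 (right_mem_segment ℝ x x2)
    have hc8 : 1 / (8 * (1 + |r|)) ≤ 1 / 8 := by
      rw [div_le_div_iff₀ (by positivity) (by norm_num)]
      linarith
    have hGn : 7 / 8 ≤ ‖G x2‖ := by
      have h3 : ‖n‖ ≤ ‖G x2‖ + ‖G x2 - n‖ := by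
        have : n = G x2 - (G x2 - n) := by abel
        calc ‖n‖ = ‖G x2 - (G x2 - n)‖ := by rw [← this]
          _ ≤ _ := norm_sub_le _ _
      rw [hn] at h3
      linarith
    have h0 : G x2 ≠ 0 := by
      intro h; rw [h, norm_zero] at hGn; norm_num at hGn
    obtain ⟨s, hs⟩ := lagrange hφ hG (z := z) (x2 := x2)
      (fun y hy => hmin y (hy.trans h2)) h0
    have hsr : |s| * (7 / 8) ≤ |r| := by
      have h4 : ‖z - x2‖ = |s| * ‖G x2‖ := by rw [hs, norm_smul, Real.norm_eq_abs]
      have h5 : ‖z - x2‖ ≤ |r| := by rw [norm_sub_rev]; exact hle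
      have := mul_le_mul_of_nonneg_left hGn (abs_nonneg s)
      linarith
    set d : E := x2 - x with hd
    have hdn := norm_nonneg d
    set h : ℝ := ⟪n, d⟫_ℝ with hh
    -- `‖d - h n‖ ≤ |s| ‖e‖` for every decomposition `G x2 = a n + e`
    have hproj : ∀ (a : ℝ) (e : E), G x2 = a • n + e → ‖d - h • n‖ ≤ |s| * ‖e‖ := by
      intro a e hae
      have h6 : d = (r - s * a) • n - s • e := by
        have : x2 = z - s • G x2 := by rw [← hs]; abel
        rw [hd, this, hz, hae, sub_smul, smul_add, smul_smul]; abel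
      have h7 : h = (r - s * a) - s * ⟪n, e⟫_ℝ := by
        rw [hh, h6, inner_sub_right, inner_smul_right, inner_smul_right,
          real_inner_self_eq_norm_sq, hn]; ring
      have h8 : d - h • n = - (s • (e - ⟪n, e⟫_ℝ • n)) := by
        rw [h7, h6, smul_sub, sub_smul (r - s * a) _ n, smul_smul]; abel
      rw [h8, norm_neg, norm_smul, Real.norm_eq_abs]
      apply mul_le_mul_of_nonneg_left _ (abs_nonneg s)
      have h9 : ‖e - ⟪n, e⟫_ℝ • n‖ ^ 2 = ‖e‖ ^ 2 - ⟪n, e⟫_ℝ ^ 2 := by
        rw [@norm_sub_sq_real, inner_smul_right, norm_smul, hn, real_inner_comm,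
          Real.norm_eq_abs, mul_one, sq_abs]; ring
      have h10 : ‖e - ⟪n, e⟫_ℝ • n‖ ^ 2 ≤ ‖e‖ ^ 2 := by
        rw [h9]; linarith [sq_nonneg (⟪n, e⟫_ℝ)]
      exact (pow_le_pow_iff_left₀ (norm_nonneg _) (norm_nonneg _) (by norm_num)).mp h10
    have htri : ‖d‖ ≤ |h| + ‖d - h • n‖ := by
      calc ‖d‖ = ‖h • n + (d - h • n)‖ := by congr 1; abel
        _ ≤ ‖h • n‖ + ‖d - h • n‖ := norm_add_le _ _
        _ = |h| + ‖d - h • n‖ := by rw [norm_smul, hn, mul_one, Real.norm_eq_abs]
    -- first step: `‖d‖ ≤ 1`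
    have hd1 : ‖d‖ ≤ 1 := by
      have h11 := hproj 1 (G x2 - n) (by rw [one_smul]; abel)
      have h12 : |s| * ‖G x2 - n‖ ≤ 1 / 7 := by
        have h13 : |s| * ‖G x2 - n‖ ≤ |s| * (1 / (8 * (1 + |r|))) :=
          mul_le_mul_of_nonneg_left hG2 (abs_nonneg s)
        refine h13.trans ?_
        rw [mul_one_div, div_le_div_iff₀ (by positivity) (by norm_num)]
        linarith
      have h14 := mv_seg hG (x := x) (x2 := x2) (v := n) (c := 1 / 8)
        (fun y hy => (hc y hy).trans hc8)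
      rw [h2, sub_self, zero_sub, abs_neg] at h14
      change |h| ≤ 1 / 8 * ‖d‖ at h14
      linarith
    -- second step
    have hseg : ∀ y ∈ segment ℝ x x2, ‖y - x‖ ≤ ‖d‖ := by
      intro y hy
      obtain ⟨a, b, ha0, hb0, hab, rfl⟩ := hy
      have : a • x + b • x2 - x = b • d := by
        have ha' : a = 1 - b := by linarith
        rw [hd, ha', sub_smul, one_smul, smul_sub]; abel
      rw [this, norm_smul, Real.norm_eq_abs, abs_of_nonneg hb0]
      have : b ≤ 1 := by linarith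
      exact mul_le_of_le_one_left hdn this
    by_contra hne
    have hdpos : 0 < ‖d‖ := by
      rw [norm_pos_iff, hd]; exact sub_ne_zero.mpr hne
    have hK0 : 0 ≤ K := by
      have h15 := (norm_nonneg _).trans (hb x2 hd1)
      by_contra hK
      push Not at hK
      nlinarith
    have hK1 : K ≤ 1 / 16 := by nlinarith
    have h16 := hproj g (G x2 - G x) (by rw [← hGx]; abel)
    have h17 : ‖G x2 - G x‖ ≤ K * ‖d‖ := hb x2 hd1
    have h18 : |s| * ‖G x2 - G x‖ ≤ 1 / 14 * ‖d‖ := by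
      have a1 : |s| * ‖G x2 - G x‖ ≤ |s| * (K * ‖d‖) :=
        mul_le_mul_of_nonneg_left h17 (abs_nonneg s)
      have a2 : |s| * K ≤ 1 / 14 := by nlinarith
      have a3 : |s| * (K * ‖d‖) = |s| * K * ‖d‖ := by ring
      rw [a3] at a1
      exact a1.trans (mul_le_mul_of_nonneg_right a2 hdn)
    have h19 := mv_seg hG (x := x) (x2 := x2) (v := G x) (c := 1 / 16) (fun y hy => by
      have b1 := hseg y hy
      refine (hb y (b1.trans hd1)).trans ?_
      have := norm_nonneg (y - x)
      nlinarith)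
    have h19' := mv_seg hG (x := x) (x2 := x2) (v := G x) (c := K * ‖d‖) (fun y hy => by
      have b1 := hseg y hy
      exact (hb y (b1.trans hd1)).trans (mul_le_mul_of_nonneg_left b1 hK0))
    rw [h2, sub_self, zero_sub, abs_neg, hGx, inner_smul_left] at h19'
    simp only [conj_trivial] at h19'
    change |g * h| ≤ K * ‖d‖ * ‖d‖ at h19'
    rw [abs_mul, abs_of_nonneg hg] at h19'
    have h20 : |h| ≤ 1 / 14 * ‖d‖ := by
      have c1 : 7 / 8 ≤ g := by have := (abs_le.mp hgn).1; linarith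
      have c2 : 7 / 8 * |h| ≤ g * |h| := mul_le_mul_of_nonneg_right c1 (abs_nonneg h)
      have c3 : K * ‖d‖ * ‖d‖ ≤ 1 / 16 * ‖d‖ := by
        have : K * ‖d‖ ≤ 1 / 16 := by nlinarith
        exact mul_le_mul_of_nonneg_right this hdn
      linarith
    linarith
  -- existence of a nearest point
  have hcl : IsClosed {y | φ y = φ x} := isClosed_eq hφ.continuous continuous_const
  have hp : ProperSpace E := FiniteDimensional.proper_real E
  obtain ⟨x2, h2, hdist⟩ := hcl.exists_infDist_eq_dist ⟨x, rfl⟩ z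
  have hmin : ∀ y, φ y = φ x → ‖x2 - z‖ ≤ ‖y - z‖ := by
    intro y hy
    rw [← dist_eq_norm, ← dist_eq_norm, dist_comm x2, dist_comm y, ← hdist]
    exact infDist_le_dist_of_mem hy
  have hx2 : x2 = x := key x2 h2 hmin
  rw [hx2, hxz] at hmin
  refine ⟨hmin y hy, fun h => ?_⟩
  refine key y hy fun w hw => ?_
  rw [h]; exact hmin w hw

end abs

end Vale.Agent.P134.H821
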