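import Vale.Agent.P134.H821.Pe

set_option linter.all false

/-! INJ and NEAR (package R3): for `(x, t)` with `e^{2√2|t|} q(x)` small, `x` is the unique nearest
point of its level set to `x + t n(x)`; hence `(x, t) ↦ (x + t n(x), φ(x))` is injective there. -/

namespace Vale.Agent.P134.H821

open Vale.Agent.P134 Vale.Agent.P134.SM Vale.Agent.P134.LI MeasureTheory Filter Topology

variable {u : R3 → ℝ} {x y z e : R3} {i j q : Fin 3} {s t r : ℝ}

/-- The far bound (H2) for `V_e` (constant `C`), sharp exponent `√2`. -/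
def FarB (C : ℝ) : Prop := ∀ (u : R3 → ℝ), Sol u → ∀ e : R3, (∑ i, e i ^ 2 ≤ 1) → ∀ x y : R3,
  H283.Vd e u y ≤ C * (1 + eno (y - x)) ^ 2 * Real.exp (Real.sqrt 2 * eno (y - x)) * H283.Vd e u x

lemma nn_unit' (h : 0 < rr u x) : eno (nn u x) = 1 := by
  have h1 : 0 < gs (phi u) x := by
    unfold rr wn at h; exact Real.sqrt_pos.mp h
  have h2 : esq (nn u x) = 1 := sum_nu_sq h1
  unfold eno; rw [h2, Real.sqrt_one]

lemma nn_sum_sq_le (u : R3 → ℝ) (x : R3) : ∑ i, nn u x i ^ 2 ≤ 1 := by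
  by_cases h : 0 < gs (phi u) x
  · exact (sum_nu_sq h).le
  · have h0 : wn (phi u) x = 0 := by
      unfold wn; rw [Real.sqrt_eq_zero']; linarith
    unfold nn nu
    simp [h0]

lemma gr_phi_eq (h : 0 < rr u x) : gr (phi u) x = rr u x • nn u x := by
  have h1 : 0 < gs (phi u) x := by
    unfold rr wn at h; exact Real.sqrt_pos.mp h
  funext i
  rw [Pi.smul_apply, smul_eq_mul]
  exact pd_eq_wn_mul_nu h1 i

lemma dd_nn (h : 0 < rr u x) : dd (nn u x) (phi u) x = rr u x := by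
  have h1 : 0 < gs (phi u) x := by
    unfold rr wn at h; exact Real.sqrt_pos.mp h
  unfold dd
  have : ∀ i, nn u x i * pd i (phi u) x = rr u x * nn u x i ^ 2 := by
    intro i
    have := pd_eq_wn_mul_nu h1 i
    have e : pd i (phi u) x = rr u x * nn u x i := this
    rw [e]; ring
  simp_rw [this]
  rw [← Finset.mul_sum]
  have h2 : ∑ i, nn u x i ^ 2 = 1 := sum_nu_sq h1
  rw [h2, mul_one]

/-- `P_n(x) = (1 - |∇φ|)/2 ≤ q/2` at the base point. -/
lemma Pe_nn_le (hu : Sol u) (hl : ∀ x, |u x| < 1) (h : 0 < rr u x) :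
    Pe (nn u x) u x ≤ qq u x / 2 := by
  unfold Pe
  rw [dd_nn h]
  have h1 := rr_sq (u := u) x
  have h2 := rr_le_one hu hl x
  nlinarith

lemma xt_eq (u : R3 → ℝ) (x : R3) (t : ℝ) : xt u x t = x + t • nn u x := by
  funext i; rfl

/-- The constant of the unique nearest point theorem. -/
noncomputable def cU (C s3 : ℝ) : ℝ :=
  2 ^ 12 * C * Real.exp (Real.sqrt 2 * s3) + (1000 * cP) ^ 2 * Real.exp (3 * cP)

lemma cU_pos {C : ℝ} (hC : 0 ≤ C) (s3 : ℝ) : 1 < cU C s3 := by
  have h1 := cP_ge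
  have h2 : 1 ≤ Real.exp (3 * cP) := Real.one_le_exp (by linarith)
  have h3 : 0 ≤ 2 ^ 12 * C * Real.exp (Real.sqrt 2 * s3) := by positivity
  have h4 : (1000:ℝ) ≤ 1000 * cP := by linarith
  have h5 : (1:ℝ) < (1000 * cP) ^ 2 := by nlinarith
  unfold cU
  nlinarith

/-- Estimate of `P_n` on the segments that matter. -/
lemma Pe_seg {C : ℝ} (hC : 0 ≤ C) (hF : FarB C) (hu : Sol u) (hl : ∀ x, |u x| < 1)
    {s3 : ℝ} (hx : |phi u x| ≤ s3) (h0 : 0 < rr u x) {x2 : R3} (h2 : phi u x2 = phi u x)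
    {a : ℝ} (ha : a ∈ Set.Icc (0:ℝ) 1) :
    Pe (nn u x) u (x + a • (x2 - x)) ≤ C * Real.exp (Real.sqrt 2 * s3) *
      (1 + eno (x2 - x)) ^ 2 * Real.exp (Real.sqrt 2 * eno (x2 - x)) * qq u x := by
  set l : ℝ := eno (x2 - x) with hl'
  have hl0 : 0 ≤ l := eno_nonneg _
  set y : R3 := x + a • (x2 - x) with hy
  have hyx : eno (y - x) = a * l := by
    rw [hy, add_sub_cancel_left, eno_smul, abs_of_nonneg ha.1]
  have hyx2 : eno (y - x2) = (1 - a) * l := by
    have : y - x2 = (-(1 - a)) • (x2 - x) := by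
      rw [hy]; module
    rw [this, eno_smul, abs_neg, abs_of_nonneg (by linarith [ha.2])]
  have hphi : |phi u y| ≤ s3 + (1 - a) * l := by
    have h3 := phi_lip hu hl x2 y
    rw [hyx2, h2] at h3
    have h4 : phi u y = (phi u y - phi u x) + phi u x := by ring
    rw [h4]
    exact (abs_add_le _ _).trans (by linarith)
  have hff : (ff u y)⁻¹ ≤ Real.sqrt 2 * Real.exp (Real.sqrt 2 * (s3 + (1 - a) * l)) := by
    have h5 := le_ff hl y
    have h6 : Real.exp (-(Real.sqrt 2 * (s3 + (1 - a) * l))) / Real.sqrt 2 ≤ ff u y := by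
      refine le_trans ?_ h5
      apply div_le_div_of_nonneg_right _ s2_pos.le
      apply Real.exp_le_exp.mpr
      have := mul_le_mul_of_nonneg_left hphi s2_pos.le
      linarith
    have h7 := inv_anti₀ (div_pos (Real.exp_pos _) s2_pos) h6
    rw [inv_div, Real.exp_neg, div_inv_eq_mul] at h7
    exact h7
  have hVx : H283.Vd (-nn u x) u x ≤ qq u x / 2 := by
    rw [Vd_eq hu hl]
    have h8 := Pe_nn_le hu hl h0
    have h9 := ff_le_one u x
    have h10 := ff_pos hl x
    have h11 := Pe_nonneg hu hl (nn_sum_sq_le u x) x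
    nlinarith
  have hVy := hF u hu (-nn u x) (H283.neg_unit (nn_sum_sq_le u x)) x y
  rw [hyx] at hVy
  have hq := qq_nonneg hu hl x
  have hal : a * l ≤ l := by nlinarith [ha.2]
  have hal0 : 0 ≤ a * l := mul_nonneg ha.1 hl0
  have hVy' : H283.Vd (-nn u x) u y
      ≤ C * (1 + l) ^ 2 * Real.exp (Real.sqrt 2 * (a * l)) * (qq u x / 2) := by
    refine hVy.trans ?_
    have hV0 := H283.Vd_nonneg hu (H283.neg_unit (nn_sum_sq_le u x)) x
    have e1 : C * (1 + a * l) ^ 2 ≤ C * (1 + l) ^ 2 :=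
      mul_le_mul_of_nonneg_left (pow_le_pow_left₀ (by linarith) (by linarith) 2) hC
    have e2 : C * (1 + a * l) ^ 2 * Real.exp (Real.sqrt 2 * (a * l))
        ≤ C * (1 + l) ^ 2 * Real.exp (Real.sqrt 2 * (a * l)) :=
      mul_le_mul_of_nonneg_right e1 (Real.exp_pos _).le
    exact mul_le_mul e2 hVx hV0 (by positivity)
  rw [Pe_eq hu hl, div_eq_mul_inv]
  have hV0 := H283.Vd_nonneg hu (H283.neg_unit (nn_sum_sq_le u x)) y
  have hinv : 0 ≤ (ff u y)⁻¹ := (inv_pos.mpr (ff_pos hl y)).le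
  calc H283.Vd (-nn u x) u y * (ff u y)⁻¹
      ≤ (C * (1 + l) ^ 2 * Real.exp (Real.sqrt 2 * (a * l)) * (qq u x / 2))
        * (Real.sqrt 2 * Real.exp (Real.sqrt 2 * (s3 + (1 - a) * l))) :=
        mul_le_mul hVy' hff hinv (by positivity)
    _ = (Real.sqrt 2 / 2) * (C * (1 + l) ^ 2 * qq u x
        * (Real.exp (Real.sqrt 2 * (a * l)) * Real.exp (Real.sqrt 2 * (s3 + (1 - a) * l)))) := by
        ring
    _ = (Real.sqrt 2 / 2) * (C * (1 + l) ^ 2 * qq u x
        * (Real.exp (Real.sqrt 2 * s3) * Real.exp (Real.sqrt 2 * l))) := by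
        rw [← Real.exp_add, ← Real.exp_add]
        congr 3; ring
    _ ≤ 1 * (C * (1 + l) ^ 2 * qq u x
        * (Real.exp (Real.sqrt 2 * s3) * Real.exp (Real.sqrt 2 * l))) := by
        apply mul_le_mul_of_nonneg_right _ (by positivity)
        have := s2_le; linarith
    _ = _ := by ring

/-- **Unique nearest point (quantitative).** If `cU (1+|r|)^4 e^{2√2|r|} q(x) ≤ 1`, then `x` is the
unique nearest point of `{φ = φ(x)}` to `x + r n(x)`. -/
theorem unique_nearest {C : ℝ} (hC : 0 ≤ C) (hF : FarB C) (hu : Sol u) (hl : ∀ x, |u x| < 1)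
    {s3 : ℝ} (hx : |phi u x| ≤ s3)
    (hr : cU C s3 * (1 + |r|) ^ 4 * Real.exp (2 * Real.sqrt 2 * |r|) * qq u x ≤ 1) :
    0 < rr u x ∧ ∀ y, phi u y = phi u x →
      |r| ≤ eno (y - xt u x r) ∧ (eno (y - xt u x r) = |r| → y = x) := by
  have hq := qq_nonneg hu hl x
  have hc1 := cU_pos hC s3
  have hcP := cP_ge
  have hr0 := abs_nonneg r
  set R : ℝ := 1 + |r| with hR
  have hR1 : 1 ≤ R := by linarith
  set E : ℝ := Real.exp (2 * Real.sqrt 2 * |r|) with hE
  have hE1 : 1 ≤ E := Real.one_le_exp (by have := s2_pos; positivity)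
  have hR4 : 1 ≤ R ^ 4 := one_le_pow₀ hR1
  have hRE : 1 ≤ R ^ 4 * E := one_le_mul_of_one_le_of_one_le hR4 hE1
  have hA : cU C s3 * qq u x ≤ 1 := by
    refine le_trans ?_ hr
    have : cU C s3 * R ^ 4 * E * qq u x = (cU C s3 * qq u x) * (R ^ 4 * E) := by ring
    rw [this]
    exact le_mul_of_one_le_right (by positivity) hRE
  have hq1 : qq u x < 1 := by
    by_contra h
    push Not at h
    nlinarith
  have h0 : 0 < rr u x := by
    have h1 := rr_sq (u := u) x
    have h2 := rr_nonneg (u := u) x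
    rcases h2.lt_or_eq with h | h
    · exact h
    · rw [← h] at h1; exfalso; norm_num at h1; linarith
  refine ⟨h0, fun y hy => ?_⟩
  have hnn := nn_sum_sq_le u x
  -- the radius `ρ`
  set ρ : ℝ := 1 / (672 * cP * R) with hρ
  have hρ0 : 0 < ρ := by positivity
  have hρ1 : ρ ≤ 1 := by
    rw [hρ, div_le_one (by positivity)]
    nlinarith
  have hB : Real.exp (3 * cP) * (1000 * cP) ^ 2 * R ^ 2 * qq u x ≤ 1 := by
    refine le_trans ?_ hr
    have e1 : Real.exp (3 * cP) * (1000 * cP) ^ 2 ≤ cU C s3 := by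
      unfold cU
      have : 0 ≤ 2 ^ 12 * C * Real.exp (Real.sqrt 2 * s3) := by positivity
      linarith
    have e2 : R ^ 2 ≤ R ^ 4 * E := by
      have : R ^ 2 ≤ R ^ 4 := pow_le_pow_right₀ hR1 (by norm_num)
      nlinarith
    have e3 : Real.exp (3 * cP) * (1000 * cP) ^ 2 * R ^ 2 ≤ cU C s3 * (R ^ 4 * E) :=
      mul_le_mul e1 e2 (by positivity) (by positivity)
    calc _ ≤ cU C s3 * (R ^ 4 * E) * qq u x := mul_le_mul_of_nonneg_right e3 hq
      _ = _ := by ring
  have hPx : Real.exp (3 * cP) * Pe (nn u x) u x ≤ ρ ^ 2 := by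
    have h3 := Pe_nn_le hu hl h0
    have h4 : Real.exp (3 * cP) * Pe (nn u x) u x ≤ Real.exp (3 * cP) * (qq u x / 2) :=
      mul_le_mul_of_nonneg_left h3 (Real.exp_pos _).le
    refine h4.trans ?_
    rw [hρ, div_pow, one_pow, le_div_iff₀ (by positivity)]
    refine le_trans ?_ hB
    have : Real.exp (3 * cP) * (qq u x / 2) * (672 * cP * R) ^ 2
        = (Real.exp (3 * cP) * cP ^ 2 * R ^ 2 * qq u x) * (672 ^ 2 / 2) := by ring
    rw [this]
    have h5 : Real.exp (3 * cP) * (1000 * cP) ^ 2 * R ^ 2 * qq u x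
        = (Real.exp (3 * cP) * cP ^ 2 * R ^ 2 * qq u x) * 1000 ^ 2 := by ring
    rw [h5]
    exact mul_le_mul_of_nonneg_left (by norm_num) (by positivity)
  have key := nearest_unique_coord (φ := phi u) ((phi_c2 hu hl).of_le (by norm_num)) (x := x)
    (e := nn u x) (r := r) (g := rr u x) (K := 42 * cP * ρ) (nn_unit' h0) h0.le (gr_phi_eq h0)
    ?_ ?_ ?_ hy
  · rw [xt_eq]; exact key
  · intro x2 h2 h3 a ha
    have hlen : eno (x2 - x) ≤ 2 * |r| := by
      have e1 : x2 - x = (x2 - (x + r • nn u x)) + r • nn u x := by abel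
      rw [e1]
      refine (eno_add_le _ _).trans ?_
      rw [eno_smul, nn_unit' h0]
      linarith
    have h4 := Pe_seg hC hF hu hl hx h0 h2 ha
    have hl0 := eno_nonneg (x2 - x)
    have h5 : Pe (nn u x) u (x + a • (x2 - x))
        ≤ C * Real.exp (Real.sqrt 2 * s3) * (2 * R) ^ 2 * E * qq u x := by
      refine h4.trans ?_
      apply mul_le_mul_of_nonneg_right _ hq
      apply mul_le_mul _ _ (Real.exp_pos _).le (by positivity)
      · apply mul_le_mul_of_nonneg_left _ (by positivity)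
        exact pow_le_pow_left₀ (by linarith) (by rw [hR]; linarith) 2
      · rw [hE]
        apply Real.exp_le_exp.mpr
        have := mul_le_mul_of_nonneg_left hlen s2_pos.le
        linarith
    apply le_of_sq_le_sq _ (by positivity)
    rw [eno_sq]
    refine (esq_gr_sub_le hu hl hnn _).trans ?_
    have h6 : 4 * (C * Real.exp (Real.sqrt 2 * s3) * (2 * R) ^ 2 * E * qq u x) * (8 * R) ^ 2
        ≤ 1 := by
      have e2 : 4 * (C * Real.exp (Real.sqrt 2 * s3) * (2 * R) ^ 2 * E * qq u x) * (8 * R) ^ 2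
          = (2 ^ 10 * C * Real.exp (Real.sqrt 2 * s3)) * (R ^ 4 * E * qq u x) := by ring
      rw [e2]
      refine le_trans ?_ hr
      have e3 : 2 ^ 10 * C * Real.exp (Real.sqrt 2 * s3) ≤ cU C s3 := by
        unfold cU
        have e4 : 0 ≤ C * Real.exp (Real.sqrt 2 * s3) := by positivity
        have e5 : 0 ≤ (1000 * cP) ^ 2 * Real.exp (3 * cP) := by positivity
        nlinarith
      calc _ ≤ cU C s3 * (R ^ 4 * E * qq u x) := mul_le_mul_of_nonneg_right e3 (by positivity)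
        _ = _ := by ring
    rw [div_pow, one_pow, le_div_iff₀ (by positivity)]
    have e6 : 4 * Pe (nn u x) u (x + a • (x2 - x))
        ≤ 4 * (C * Real.exp (Real.sqrt 2 * s3) * (2 * R) ^ 2 * E * qq u x) := by linarith
    exact (mul_le_mul_of_nonneg_right e6 (by positivity)).trans h6
  · intro y hy
    exact gr_lip hu hl hnn hρ0 hρ1 hPx hy
  · rw [hρ]
    have : 42 * cP * (1 / (672 * cP * R)) * R = 1 / 16 := by
      field_simp; norm_num
    rw [this]

/-- **Injectivity** of `(x, t) ↦ (x + t n(x), φ(x))`. -/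
theorem inj {C : ℝ} (hC : 0 ≤ C) (hF : FarB C) (hu : Sol u) (hl : ∀ x, |u x| < 1) (s3 : ℝ) :
    Set.InjOn (fun z : R3 × ℝ => (xt u z.1 z.2, phi u z.1))
      {z | |phi u z.1| ≤ s3 ∧
        cU C s3 * (1 + |z.2|) ^ 4 * Real.exp (2 * Real.sqrt 2 * |z.2|) * qq u z.1 ≤ 1} := by
  rintro ⟨x, t⟩ ⟨hx, hxt⟩ ⟨y, s⟩ ⟨hy, hys⟩ h
  simp only [Prod.mk.injEq] at h hx hxt hy hys
  obtain ⟨h1, h2⟩ := h
  obtain ⟨hrx, hX⟩ := unique_nearest hC hF hu hl hx hxt
  obtain ⟨hry, hY⟩ := unique_nearest hC hF hu hl hy hys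
  have dist : ∀ (x : R3) (t : ℝ), 0 < rr u x → eno (x - xt u x t) = |t| := by
    intro x t h
    rw [xt_eq, sub_add_cancel_left, eno_neg, eno_smul, nn_unit' h, mul_one]
  have e1 : |t| ≤ |s| := by
    have := (hX y h2.symm).1
    rw [h1, dist y s hry] at this
    exact this
  have e2 : |s| ≤ |t| := by
    have := (hY x h2).1
    rw [← h1, dist x t hrx] at this
    exact this
  have e3 : |s| = |t| := le_antisymm e2 e1
  have hyx : y = x := (hX y h2.symm).2 (by rw [h1, dist y s hry, e3])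
  subst hyx
  refine Prod.ext rfl ?_
  rw [xt_eq, xt_eq] at h1
  have h3 : (t - s) • nn u y = 0 := by
    rw [sub_smul, sub_eq_zero]; exact add_left_cancel h1
  rcases smul_eq_zero.mp h3 with h4 | h4
  · exact sub_eq_zero.mp h4
  · exfalso
    have := nn_unit' hrx
    rw [h4] at this
    simp [eno, esq] at this

/-- **Nearest points**: they exist and lie on normal rays. -/
theorem near (hu : Sol u) (hl : ∀ x, |u x| < 1) {z : R3} {c L : ℝ}
    (hne : ∃ y, phi u y = c ∧ eno (y - z) ≤ L)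
    (h0 : ∀ x, phi u x = c → eno (x - z) ≤ L → 0 < rr u x) :
    ∃ (x : R3) (t : ℝ), phi u x = c ∧ xt u x t = z ∧ |t| ≤ L ∧ |t| = eno (x - z) ∧
      ∀ y, phi u y = c → |t| ≤ eno (y - z) := by
  obtain ⟨x, s, h1, h2, h3, h4⟩ := near_coord (φ := phi u) ((phi_c2 hu hl).of_le (by norm_num))
    hne (fun x hx hxL h => by
      have h5 := h0 x hx hxL
      rw [gr_phi_eq h5] at h
      rcases smul_eq_zero.mp h with h6 | h6
      · exact h5.ne' h6
      · have := nn_unit' h5
        rw [h6] at this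
        simp [eno, esq] at this)
  have h5 := h0 x h1 h3
  refine ⟨x, s * rr u x, h1, ?_, ?_, ?_, ?_⟩
  · rw [xt_eq, mul_smul, ← gr_phi_eq h5, ← h2]
  all_goals
    have e1 : |s * rr u x| = eno (x - z) := by
      have : x - z = -((s * rr u x) • nn u x) := by
        rw [mul_smul, ← gr_phi_eq h5, h2]; abel
      rw [this, eno_neg, eno_smul, nn_unit' h5, mul_one]
  · rw [e1]; exact h3
  · exact e1
  · intro y hy
    rw [e1]; exact h4 y hy

end Vale.Agent.P134.H821
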