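import Vale.Agent.P134.H821.Phi

set_option linter.all false

/-! The functions `P_e = (1 - ∂_e φ)/2 = V_{-e}/f`: Harnack, Hessian bound, Lipschitz bound. -/

namespace Vale.Agent.P134.H821

open Vale.Agent.P134 Vale.Agent.P134.SM Vale.Agent.P134.LI MeasureTheory Filter Topology

variable {u : R3 → ℝ} {x y z e : R3} {i j q : Fin 3} {s t r : ℝ}

/-- `P_e = (1 - ∂_e φ)/2`. -/
noncomputable def Pe (e : R3) (u : R3 → ℝ) (x : R3) : ℝ := (1 - dd e (phi u) x) / 2

lemma dd_phi_eq (hu : Sol u) (hl : ∀ x, |u x| < 1) (e x : R3) :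
    dd e (phi u) x = dd e u x / ff u x := by
  unfold dd
  simp_rw [pd_phi_eq hu hl]
  rw [Finset.sum_div]
  exact Finset.sum_congr rfl fun i _ => by ring

lemma Pe_eq (hu : Sol u) (hl : ∀ x, |u x| < 1) (e x : R3) :
    Pe e u x = H283.Vd (-e) u x / ff u x := by
  have h := (ff_pos hl x).ne'
  unfold Pe H283.Vd
  rw [dd_phi_eq hu hl, H283.dd_neg_left, ← ff_eq_psi]
  field_simp
  ring

lemma Vd_eq (hu : Sol u) (hl : ∀ x, |u x| < 1) (e x : R3) :
    H283.Vd (-e) u x = ff u x * Pe e u x := by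
  rw [Pe_eq hu hl, mul_div_cancel₀ _ (ff_pos hl x).ne']

lemma Pe_nonneg (hu : Sol u) (hl : ∀ x, |u x| < 1) (he : ∑ i, e i ^ 2 ≤ 1) (x : R3) :
    0 ≤ Pe e u x := by
  rw [Pe_eq hu hl]
  exact div_nonneg (H283.Vd_nonneg hu (H283.neg_unit he) x) (ff_pos hl x).le

lemma phi_c2 (hu : Sol u) (hl : ∀ x, |u x| < 1) : ContDiff ℝ 2 (phi u) := by
  exact_mod_cast H88.phi_contDiff hu hl 2

lemma phi_d (hu : Sol u) (hl : ∀ x, |u x| < 1) : Differentiable ℝ (phi u) :=
  (phi_c2 hu hl).differentiable (by norm_num)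

lemma pd_phi_d (hu : Sol u) (hl : ∀ x, |u x| < 1) (i : Fin 3) : Differentiable ℝ (pd i (phi u)) :=
  (contDiff_pd_one (phi_c2 hu hl)).differentiable (by norm_num)

lemma Pe_d (hu : Sol u) (hl : ∀ x, |u x| < 1) (e : R3) : Differentiable ℝ (Pe e u) := by
  intro x
  have e1 : Pe e u = fun y => (1 / 2 : ℝ) * (1 - ∑ i, e i * pd i (phi u) y) := by
    funext y; unfold Pe dd; ring
  have h1 : DifferentiableAt ℝ (fun y => ∑ i, e i * pd i (phi u) y) x :=
    DifferentiableAt.fun_sum fun i _ => (pd_phi_d hu hl i x).const_mul _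
  rw [e1]
  exact (h1.const_sub 1).const_mul (1 / 2 : ℝ)

lemma ff_d (hu : Sol u) (x : R3) : DifferentiableAt ℝ (ff u) x := by
  have e1 : ff u = fun y => (1 / Real.sqrt 2) * (1 - u y ^ 2) := by
    funext y; unfold ff; ring
  have := hu.c2.differentiable (by norm_num) x
  rw [e1]
  exact ((this.fun_pow 2).const_sub 1).const_mul _

lemma pd_ff (hu : Sol u) (q : Fin 3) (x : R3) :
    pd q (ff u) x = - (Real.sqrt 2 * u x * pd q u x) := by
  have hd : DifferentiableAt ℝ u x := hu.c2.differentiable (by norm_num) x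
  have e1 : ff u = fun y => (1 / Real.sqrt 2) * (1 - u y ^ 2) := by
    funext y; unfold ff; ring
  rw [e1, pd_mul (f := fun _ => 1 / Real.sqrt 2) (by fun_prop) ((hd.fun_pow 2).const_sub 1),
    pd_const, pd_sub (f := fun _ => (1:ℝ)) (by fun_prop) (hd.fun_pow 2), pd_const, pd_sq hd]
  have h1 := s2_pos
  have h2 := s2_sq
  field_simp
  linear_combination (u x * pd q u x) * h2

lemma abs_pd_le_ff (hu : Sol u) (hl : ∀ x, |u x| < 1) (q : Fin 3) (x : R3) :
    |pd q u x| ≤ ff u x := by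
  have h1 := gs_phi_le hu hl x
  have h2 : |pd q (phi u) x| ≤ 1 := by
    apply abs_le_of_sq_le_sq _ (by norm_num)
    rw [one_pow]
    exact (Finset.single_le_sum (f := fun i => pd i (phi u) x ^ 2) (fun i _ => sq_nonneg _)
      (Finset.mem_univ q)).trans h1
  rw [pd_phi_eq hu hl, abs_div, abs_of_pos (ff_pos hl x), div_le_one (ff_pos hl x)] at h2
  exact h2

lemma abs_pd_ff_le (hu : Sol u) (hl : ∀ x, |u x| < 1) (q : Fin 3) (x : R3) :
    |pd q (ff u) x| ≤ Real.sqrt 2 * ff u x := by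
  rw [pd_ff hu, abs_neg, abs_mul, abs_mul, abs_of_pos s2_pos]
  have h1 := abs_pd_le_ff hu hl q x
  have h2 := (hl x).le
  have h3 := abs_nonneg (u x)
  have h4 := abs_nonneg (pd q u x)
  have h5 : |u x| * |pd q u x| ≤ ff u x := by nlinarith
  have := s2_pos
  calc Real.sqrt 2 * |u x| * |pd q u x| = Real.sqrt 2 * (|u x| * |pd q u x|) := by ring
    _ ≤ _ := mul_le_mul_of_nonneg_left h5 this.le

/-- The constant of the gradient bound. -/
noncomputable def cP : ℝ := H283.cH 3 2 + Real.sqrt 2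

lemma cP_ge : 1 ≤ cP := by
  have h1 : 0 < H283.cH 3 2 := H283.cH_pos 3 (by norm_num)
  have h2 : (1:ℝ) ≤ Real.sqrt 2 := by
    rw [show (1:ℝ) = Real.sqrt 1 from Real.sqrt_one.symm]
    exact Real.sqrt_le_sqrt (by norm_num)
  unfold cP; linarith

/-- **Gradient bound** `|∂ P_e| ≤ C P_e`. -/
theorem abs_pd_Pe_le (hu : Sol u) (hl : ∀ x, |u x| < 1) (he : ∑ i, e i ^ 2 ≤ 1) (q : Fin 3)
    (x : R3) : |pd q (Pe e u) x| ≤ cP * Pe e u x := by
  have h0 := ff_pos hl x
  have hV := H283.abs_pd_Vd_le hu (H283.neg_unit he) q x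
  have hV0 := H283.Vd_nonneg hu (H283.neg_unit he) x
  have hf := abs_pd_ff_le hu hl q x
  have hVd : DifferentiableAt ℝ (H283.Vd (-e) u) x := (H283.nice_Vd hu (-e)).1 x
  have e1 : Pe e u = fun y => H283.Vd (-e) u y / ff u y := by
    funext y; exact Pe_eq hu hl e y
  rw [e1, pd_div hVd (ff_d hu x) h0.ne']
  refine (abs_sub _ _).trans ?_
  rw [abs_div, abs_div, abs_mul, abs_of_pos h0, abs_of_nonneg hV0, abs_of_pos (pow_pos h0 2)]
  unfold cP
  have a1 : |pd q (H283.Vd (-e) u) x| / ff u x ≤ H283.cH 3 2 * (H283.Vd (-e) u x / ff u x) := by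
    rw [← mul_div_assoc]
    exact div_le_div_of_nonneg_right hV h0.le
  have a2 : H283.Vd (-e) u x * |pd q (ff u) x| / ff u x ^ 2
      ≤ Real.sqrt 2 * (H283.Vd (-e) u x / ff u x) := by
    rw [div_le_iff₀ (by positivity)]
    have : Real.sqrt 2 * (H283.Vd (-e) u x / ff u x) * ff u x ^ 2
        = H283.Vd (-e) u x * (Real.sqrt 2 * ff u x) := by field_simp
    rw [this]
    exact mul_le_mul_of_nonneg_left hf hV0
  linarith

/-- **Harnack inequality** for `P_e`. -/
theorem Pe_harnack (hu : Sol u) (hl : ∀ x, |u x| < 1) (he : ∑ i, e i ^ 2 ≤ 1) (x y : R3) :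
    Pe e u y ≤ Real.exp (3 * cP * ‖y - x‖) * Pe e u x := by
  have := H283.harnack_of_grad (Pe_d hu hl e) (C := cP) (by have := cP_ge; linarith)
    (Pe_nonneg hu hl he) (fun q x => abs_pd_Pe_le hu hl he q x) x y
  exact_mod_cast this

/-- `|∇φ - e|² ≤ 4 P_e`. -/
lemma esq_gr_sub_le (hu : Sol u) (hl : ∀ x, |u x| < 1) (he : ∑ i, e i ^ 2 ≤ 1) (x : R3) :
    esq (gr (phi u) x - e) ≤ 4 * Pe e u x := by
  have h1 := gs_phi_le hu hl x
  have h2 : esq (gr (phi u) x - e) = gs (phi u) x - 2 * dd e (phi u) x + ∑ i, e i ^ 2 := by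
    unfold esq gs dd gr
    rw [Finset.mul_sum, ← Finset.sum_sub_distrib, ← Finset.sum_add_distrib]
    refine Finset.sum_congr rfl fun i _ => ?_
    simp only [Pi.sub_apply]; ring
  rw [h2]; unfold Pe; linarith

/-- **Hessian bound**: where `P_e ≤ ρ²`, all second derivatives of `φ` are `≤ 7 C ρ`. -/
theorem abs_hess_le (hu : Sol u) (hl : ∀ x, |u x| < 1) (he : ∑ i, e i ^ 2 ≤ 1) {ρ : ℝ}
    (h0 : 0 < ρ) (h1 : ρ ≤ 1) (hP : Pe e u y ≤ ρ ^ 2) (q i : Fin 3) :
    |pd q (pd i (phi u)) y| ≤ 7 * cP * ρ := by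
  have hc := cP_ge
  have hei : |e i| ≤ 1 := by
    apply abs_le_of_sq_le_sq _ (by norm_num)
    rw [one_pow]
    exact (Finset.single_le_sum (f := fun i => e i ^ 2) (fun i _ => sq_nonneg _)
      (Finset.mem_univ i)).trans he
  have hei' := abs_le.mp hei
  set s : ℝ := 1 + ρ * e i + ρ ^ 2 / 2 with hs
  have hs0 : 0 < s := by
    have : ρ * e i ≥ -ρ := by nlinarith
    nlinarith [sq_nonneg (1 - ρ)]
  set v : R3 := s⁻¹ • (e + ρ • Pi.single i 1) with hv
  -- `v` is admissible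
  have hsum : ∑ k, (e + ρ • Pi.single i 1 : R3) k ^ 2 = ∑ k, e k ^ 2 + 2 * ρ * e i + ρ ^ 2 := by
    exact esq_add_smul_single e ρ i
  have hv1 : ∑ k, v k ^ 2 ≤ 1 := by
    have e1 : ∑ k, v k ^ 2 = (s⁻¹) ^ 2 * ∑ k, (e + ρ • Pi.single i 1 : R3) k ^ 2 := by
      rw [Finset.mul_sum]
      refine Finset.sum_congr rfl fun k _ => ?_
      rw [hv, Pi.smul_apply, smul_eq_mul, mul_pow]
    rw [e1, hsum, inv_pow, inv_mul_le_iff₀ (by positivity), mul_one]
    have : s ^ 2 = 1 + 2 * (ρ * e i + ρ ^ 2 / 2) + (ρ * e i + ρ ^ 2 / 2) ^ 2 := by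
      rw [hs]; ring
    rw [this]
    nlinarith [sq_nonneg (ρ * e i + ρ ^ 2 / 2)]
  -- the linear relation between `∂_i φ`, `P_e`, `P_v`
  have hrel : ∀ z, pd i (phi u) z
      = ρ⁻¹ * ((s - 1) + (2 * Pe e u z - 2 * s * Pe v u z)) := by
    intro z
    have e2 : dd v (phi u) z = s⁻¹ * (dd e (phi u) z + ρ * pd i (phi u) z) := by
      unfold dd
      have e3 : ∀ k, v k * pd k (phi u) z
          = s⁻¹ * (e k * pd k (phi u) z + ρ * ((Pi.single i 1 : R3) k * pd k (phi u) z)) := by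
        intro k
        rw [hv, Pi.smul_apply, Pi.add_apply, Pi.smul_apply, smul_eq_mul, smul_eq_mul]; ring
      simp_rw [e3]
      rw [← Finset.mul_sum, Finset.sum_add_distrib, ← Finset.mul_sum]
      congr 2
      simp [Pi.single_apply]
    unfold Pe
    rw [e2]
    field_simp
    ring
  have hPe := Pe_d hu hl e
  have hPv := Pe_d hu hl v
  have hpd : pd q (pd i (phi u)) y = ρ⁻¹ * (2 * pd q (Pe e u) y - 2 * s * pd q (Pe v u) y) := by
    have e4 : pd i (phi u) = fun z => ρ⁻¹ * ((s - 1) + (2 * Pe e u z - 2 * s * Pe v u z)) := by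
      funext z; exact hrel z
    have d1 : DifferentiableAt ℝ (fun z => 2 * Pe e u z) y := (hPe y).const_mul 2
    have d2 : DifferentiableAt ℝ (fun z => 2 * s * Pe v u z) y := (hPv y).const_mul (2 * s)
    rw [e4, pd_mul (f := fun _ => ρ⁻¹) (by fun_prop) ((d1.fun_sub d2).const_add _), pd_const,
      pd_add (f := fun _ => s - 1) (by fun_prop) (d1.fun_sub d2), pd_const, pd_sub d1 d2,
      pd_mul (f := fun _ => (2:ℝ)) (by fun_prop) (hPe y), pd_const,
      pd_mul (f := fun _ => 2 * s) (by fun_prop) (hPv y), pd_const]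
    ring
  -- the bound for `s P_v`
  have hA := Pe_nonneg hu hl he y
  have hB := Pe_nonneg hu hl hv1 y
  have hcomp : |e i - pd i (phi u) y| ≤ 2 * ρ := by
    apply abs_le_of_sq_le_sq _ (by positivity)
    have h5 := esq_gr_sub_le hu hl he y
    have h6 : (gr (phi u) y - e) i ^ 2 ≤ esq (gr (phi u) y - e) :=
      Finset.single_le_sum (f := fun i => (gr (phi u) y - e) i ^ 2) (fun i _ => sq_nonneg _)
        (Finset.mem_univ i)
    have h7 : (gr (phi u) y - e) i ^ 2 = (e i - pd i (phi u) y) ^ 2 := by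
      simp only [Pi.sub_apply, gr]; ring
    rw [← h7]
    nlinarith
  have hsP : s * Pe v u y ≤ 9 / 4 * ρ ^ 2 := by
    have h8 := hrel y
    have h9 : 2 * s * Pe v u y = (s - 1) + 2 * Pe e u y - ρ * pd i (phi u) y := by
      rw [h8]; field_simp; ring
    have h10 := (abs_le.mp hcomp).2
    have h11 : ρ * (e i - pd i (phi u) y) ≤ ρ * (2 * ρ) := mul_le_mul_of_nonneg_left h10 h0.le
    have h12 : s - 1 = ρ * e i + ρ ^ 2 / 2 := by rw [hs]; ring
    nlinarith
  rw [hpd, abs_mul, abs_of_pos (inv_pos.mpr h0), inv_mul_le_iff₀ h0]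
  have k1 := abs_pd_Pe_le hu hl he q y
  have k2 := abs_pd_Pe_le hu hl hv1 q y
  have k3 : |2 * pd q (Pe e u) y - 2 * s * pd q (Pe v u) y|
      ≤ 2 * |pd q (Pe e u) y| + 2 * s * |pd q (Pe v u) y| := by
    refine (abs_sub _ _).trans ?_
    rw [abs_mul, abs_mul, abs_of_pos (by norm_num : (0:ℝ) < 2), abs_of_pos (by positivity : 0 < 2 * s)]
  have k4 : 2 * s * |pd q (Pe v u) y| ≤ 2 * s * (cP * Pe v u y) :=
    mul_le_mul_of_nonneg_left k2 (by positivity)
  have k5 : 2 * s * (cP * Pe v u y) = 2 * cP * (s * Pe v u y) := by ring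
  have k6 : 2 * cP * (s * Pe v u y) ≤ 2 * cP * (9 / 4 * ρ ^ 2) :=
    mul_le_mul_of_nonneg_left hsP (by linarith)
  have k7 : cP * Pe e u y ≤ cP * ρ ^ 2 := mul_le_mul_of_nonneg_left hP (by linarith)
  nlinarith [sq_nonneg ρ]

lemma eno_le_of_comp {v : R3} {M : ℝ} (hM : 0 ≤ M) (h : ∀ i, |v i| ≤ M) : eno v ≤ 2 * M := by
  apply le_of_sq_le_sq _ (by positivity)
  rw [eno_sq]
  unfold esq
  have : ∀ i, v i ^ 2 ≤ M ^ 2 := fun i => sq_le_sq' (abs_le.mp (h i)).1 (abs_le.mp (h i)).2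
  calc ∑ i, v i ^ 2 ≤ ∑ _i : Fin 3, M ^ 2 := Finset.sum_le_sum fun i _ => this i
    _ = 3 * M ^ 2 := by simp
    _ ≤ (2 * M) ^ 2 := by nlinarith

/-- **Lipschitz bound** for `∇φ` on the unit ball, from `P_e(x)` small. -/
theorem gr_lip (hu : Sol u) (hl : ∀ x, |u x| < 1) (he : ∑ i, e i ^ 2 ≤ 1) {ρ : ℝ}
    (h0 : 0 < ρ) (h1 : ρ ≤ 1) (hP : Real.exp (3 * cP) * Pe e u x ≤ ρ ^ 2)
    (hy : eno (y - x) ≤ 1) :
    eno (gr (phi u) y - gr (phi u) x) ≤ 42 * cP * ρ * eno (y - x) := by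
  have hc := cP_ge
  have hPx := Pe_nonneg hu hl he x
  have hn := eno_nonneg (y - x)
  have key : ∀ i, |(gr (phi u) y - gr (phi u) x) i| ≤ 21 * cP * ρ * eno (y - x) := by
    intro i
    have hd := pd_phi_d hu hl i
    have h2 : ∀ s : ℝ, HasDerivAt (fun s : ℝ => pd i (phi u) (x + s • (y - x)))
        (dd (y - x) (pd i (phi u)) (x + s • (y - x))) s := fun s => hasDerivAt_dd hd x (y - x) s
    have h3 := Convex.norm_image_sub_le_of_norm_hasDerivWithin_le
      (f := fun s : ℝ => pd i (phi u) (x + s • (y - x)))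
      (f' := fun s => dd (y - x) (pd i (phi u)) (x + s • (y - x))) (s := Set.Icc 0 1)
      (C := 21 * cP * ρ * eno (y - x))
      (fun s _ => (h2 s).hasDerivWithinAt) ?_ (convex_Icc 0 1)
      (Set.left_mem_Icc.mpr (by norm_num)) (Set.right_mem_Icc.mpr (by norm_num))
    · simpa [gr] using h3
    · intro s hs
      have h4 : ‖x + s • (y - x) - x‖ ≤ 1 := by
        rw [add_sub_cancel_left]
        refine (norm_le_eno _).trans ?_
        rw [eno_smul, abs_of_nonneg hs.1]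
        nlinarith [hs.2]
      have h5 : Pe e u (x + s • (y - x)) ≤ ρ ^ 2 := by
        refine (Pe_harnack hu hl he x _).trans (le_trans ?_ hP)
        apply mul_le_mul_of_nonneg_right _ hPx
        apply Real.exp_le_exp.mpr
        nlinarith
      have h6 : ∀ q, |pd q (pd i (phi u)) (x + s • (y - x))| ≤ 7 * cP * ρ :=
        fun q => abs_hess_le hu hl he h0 h1 h5 q i
      unfold dd
      calc ‖∑ q, (y - x) q * pd q (pd i (phi u)) (x + s • (y - x))‖
          ≤ ∑ q, ‖(y - x) q * pd q (pd i (phi u)) (x + s • (y - x))‖ := norm_sum_le _ _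
        _ ≤ ∑ _q : Fin 3, eno (y - x) * (7 * cP * ρ) := by
            apply Finset.sum_le_sum
            intro q _
            rw [norm_mul]
            exact mul_le_mul ((norm_le_pi_norm _ q).trans (norm_le_eno _)) (h6 q)
              (norm_nonneg _) hn
        _ = 21 * cP * ρ * eno (y - x) := by
            simp only [Finset.sum_const, Finset.card_univ, Fintype.card_fin, nsmul_eq_mul]
            push_cast; ring
  have := eno_le_of_comp (v := gr (phi u) y - gr (phi u) x) (by positivity) key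
  linarith

end Vale.Agent.P134.H821
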