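import Vale.Agent.P134.H821.Coord
import Vale.Agent.P134.H88.Reg
import Vale.Agent.P134.H283.Harnack

set_option linter.all false

/-! Elementary facts on `φ = √2 artanh u`, the functions `P_e = V_{-e}/f = (1 - ∂_e φ)/2`, and the
bound `|D²φ| ≤ C √q` (only from the Harnack inequality for the first derivatives of `V_e`). -/

namespace Vale.Agent.P134.H821

open Vale.Agent.P134 Vale.Agent.P134.SM Vale.Agent.P134.LI MeasureTheory Filter Topology

variable {u : R3 → ℝ} {x y z e : R3} {i j q : Fin 3} {s t r : ℝ}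

lemma s2_pos : (0:ℝ) < Real.sqrt 2 := by positivity
lemma s2_sq : Real.sqrt 2 ^ 2 = 2 := Real.sq_sqrt (by norm_num)
lemma s2_mul : Real.sqrt 2 * Real.sqrt 2 = 2 := Real.mul_self_sqrt (by norm_num)
lemma s2_le : Real.sqrt 2 ≤ 3 / 2 := by
  rw [show (3:ℝ) / 2 = Real.sqrt ((3 / 2) ^ 2) from (Real.sqrt_sq (by norm_num)).symm]
  exact Real.sqrt_le_sqrt (by norm_num)

lemma ff_pos (hl : ∀ x, |u x| < 1) (x : R3) : 0 < ff u x := by
  unfold ff
  have h1 : u x ^ 2 < 1 := by
    have := hl x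
    rw [← sq_abs]; nlinarith [abs_nonneg (u x)]
  exact div_pos (by linarith) s2_pos

lemma ff_eq_psi (u : R3 → ℝ) (x : R3) : ff u x = psi u x / Real.sqrt 2 := rfl

lemma pd_phi_eq (hu : Sol u) (hl : ∀ x, |u x| < 1) (i : Fin 3) (x : R3) :
    pd i (phi u) x = pd i u x / ff u x := by
  have hd : DifferentiableAt ℝ u x := hu.c2.differentiable (by norm_num) x
  have h1 := abs_lt.mp (hl x)
  have a1 : 0 < 1 + u x := by linarith
  have a2 : 0 < 1 - u x := by linarith
  have hh : HasDerivAt (fun s : ℝ => Real.sqrt 2 / 2 * (Real.log (1 + s) - Real.log (1 - s)))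
      (1 / ((1 - u x ^ 2) / Real.sqrt 2)) (u x) := by
    have b1 : HasDerivAt (fun s : ℝ => Real.log (1 + s)) (1 / (1 + u x)) (u x) := by
      have := ((hasDerivAt_id (u x)).const_add 1).log (by simpa using a1.ne')
      simpa using this
    have b2 : HasDerivAt (fun s : ℝ => Real.log (1 - s)) (-1 / (1 - u x)) (u x) := by
      have := ((hasDerivAt_id (u x)).const_sub 1).log (by simpa using a2.ne')
      simpa using this
    have b3 := (b1.fun_sub b2).const_mul (Real.sqrt 2 / 2)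
    refine b3.congr_deriv ?_
    have e1 : (1 - u x ^ 2) = (1 + u x) * (1 - u x) := by ring
    rw [e1]
    have := s2_pos
    field_simp
    have h2 := s2_sq
    ring_nf
  have e : phi u = fun y => (fun s : ℝ => Real.sqrt 2 / 2 * (Real.log (1 + s) - Real.log (1 - s)))
      (u y) := rfl
  rw [e, pd_comp hh.differentiableAt hd, hh.deriv]
  unfold ff
  ring

lemma g0_phi (hl : ∀ x, |u x| < 1) (x : R3) : g0 (phi u x) = u x := by
  have h1 := abs_lt.mp (hl x)
  have a1 : 0 < 1 + u x := by linarith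
  have a2 : 0 < 1 - u x := by linarith
  unfold g0 phi
  have e1 : Real.sqrt 2 / 2 * (Real.log (1 + u x) - Real.log (1 - u x)) / Real.sqrt 2
      = (Real.log (1 + u x) - Real.log (1 - u x)) / 2 := by
    have := s2_pos
    field_simp
  rw [e1, Real.tanh_eq_sinh_div_cosh, Real.sinh_eq, Real.cosh_eq]
  set w : ℝ := (Real.log (1 + u x) - Real.log (1 - u x)) / 2 with hw
  have e2 : Real.exp w ^ 2 = (1 + u x) / (1 - u x) := by
    rw [← Real.exp_nat_mul, hw]
    push_cast
    rw [mul_div_cancel₀ _ (two_ne_zero), Real.exp_sub, Real.exp_log a1, Real.exp_log a2]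
  have e3 : Real.exp (-w) = (Real.exp w)⁻¹ := Real.exp_neg w
  have hp := Real.exp_pos w
  rw [e3, div_div_div_cancel_right₀ (by norm_num : (2:ℝ) ≠ 0)]
  have e4 : (Real.exp w - (Real.exp w)⁻¹) = (Real.exp w ^ 2 - 1) / Real.exp w := by
    field_simp
  have e5 : (Real.exp w + (Real.exp w)⁻¹) = (Real.exp w ^ 2 + 1) / Real.exp w := by
    field_simp
  rw [e4, e5, div_div_div_cancel_right₀ hp.ne', e2]
  have : 1 - u x ≠ 0 := a2.ne'
  field_simp
  ring

lemma g1_phi (hl : ∀ x, |u x| < 1) (x : R3) : g1 (phi u x) = ff u x := by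
  unfold g1 ff; rw [g0_phi hl]

lemma le_g1 (s : ℝ) : Real.exp (-(Real.sqrt 2 * |s|)) / Real.sqrt 2 ≤ g1 s := by
  unfold g1 g0
  have hc := Real.cosh_pos (s / Real.sqrt 2)
  have e1 : 1 - Real.tanh (s / Real.sqrt 2) ^ 2 = 1 / Real.cosh (s / Real.sqrt 2) ^ 2 := by
    rw [Real.tanh_eq_sinh_div_cosh]
    have := Real.cosh_sq_sub_sinh_sq (s / Real.sqrt 2)
    field_simp
    linarith
  rw [e1]
  apply div_le_div_of_nonneg_right _ s2_pos.le
  have h1 : Real.cosh (s / Real.sqrt 2) ≤ Real.exp |s / Real.sqrt 2| := by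
    rw [← Real.cosh_abs, Real.cosh_eq]
    have h2 : Real.exp (-|s / Real.sqrt 2|) ≤ Real.exp |s / Real.sqrt 2| :=
      Real.exp_le_exp.mpr (by have := abs_nonneg (s / Real.sqrt 2); linarith)
    linarith
  have h3 : Real.cosh (s / Real.sqrt 2) ^ 2 ≤ Real.exp (Real.sqrt 2 * |s|) := by
    have h4 : Real.exp |s / Real.sqrt 2| ^ 2 = Real.exp (Real.sqrt 2 * |s|) := by
      rw [← Real.exp_nat_mul]
      congr 1
      rw [abs_div, abs_of_pos s2_pos]
      push_cast
      have := s2_pos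
      have h5 := s2_sq
      field_simp
      linear_combination (-|s|) * h5
    rw [← h4]
    exact pow_le_pow_left₀ hc.le h1 2
  rw [Real.exp_neg, ← one_div]
  exact one_div_le_one_div_of_le (by positivity) h3

lemma le_ff (hl : ∀ x, |u x| < 1) (x : R3) :
    Real.exp (-(Real.sqrt 2 * |phi u x|)) / Real.sqrt 2 ≤ ff u x := by
  rw [← g1_phi hl]; exact le_g1 _

lemma ff_le_one (u : R3 → ℝ) (x : R3) : ff u x ≤ 1 := by
  unfold ff
  rw [div_le_one s2_pos]
  have h1 : (1:ℝ) ≤ Real.sqrt 2 := by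
    rw [show (1:ℝ) = Real.sqrt 1 from Real.sqrt_one.symm]
    exact Real.sqrt_le_sqrt (by norm_num)
  nlinarith [sq_nonneg (u x)]

lemma gs_phi_eq (hu : Sol u) (hl : ∀ x, |u x| < 1) (x : R3) :
    gs (phi u) x = gs u x / ff u x ^ 2 := by
  unfold gs
  simp_rw [pd_phi_eq hu hl, div_pow]
  rw [Finset.sum_div]

lemma qq_eq (hu : Sol u) (hl : ∀ x, |u x| < 1) (x : R3) : qq u x = defi u x / ff u x ^ 2 := by
  have h := (ff_pos hl x).ne'
  unfold qq
  rw [gs_phi_eq hu hl, defi_eq, eq_div_iff (by positivity), sub_mul,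
    div_mul_cancel₀ _ (by positivity)]
  rw [ff_eq_psi, div_pow, s2_sq]
  ring

lemma qq_nonneg (hu : Sol u) (hl : ∀ x, |u x| < 1) (x : R3) : 0 ≤ qq u x := by
  rw [qq_eq hu hl]
  have := hu.modica x
  apply div_nonneg _ (by positivity)
  unfold defi psi
  linarith

lemma gs_phi_le (hu : Sol u) (hl : ∀ x, |u x| < 1) (x : R3) : gs (phi u) x ≤ 1 := by
  have := qq_nonneg hu hl x
  unfold qq at this
  linarith

lemma qq_le_one (x : R3) : qq u x ≤ 1 := by
  have := gs_nonneg (phi u) x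
  unfold qq; linarith

lemma rr_sq (x : R3) : rr u x ^ 2 = 1 - qq u x := by
  unfold rr qq; rw [wn_sq]; ring

lemma rr_le_one (hu : Sol u) (hl : ∀ x, |u x| < 1) (x : R3) : rr u x ≤ 1 := by
  unfold rr wn
  rw [Real.sqrt_le_one]
  exact gs_phi_le hu hl x

lemma rr_nonneg (x : R3) : 0 ≤ rr u x := wn_nonneg _ _

/-- `|∂_e φ| ≤ |e|`. -/
lemma abs_dd_phi_le (hu : Sol u) (hl : ∀ x, |u x| < 1) (e x : R3) : |dd e (phi u) x| ≤ eno e := by
  apply abs_le_of_sq_le_sq _ (eno_nonneg e)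
  have h := Finset.sum_mul_sq_le_sq_mul_sq Finset.univ e (fun i => pd i (phi u) x)
  have h1 := gs_phi_le hu hl x
  rw [eno_sq]
  have h2 := esq_nonneg e
  calc dd e (phi u) x ^ 2 ≤ esq e * gs (phi u) x := h
    _ ≤ esq e * 1 := mul_le_mul_of_nonneg_left h1 h2
    _ = esq e := mul_one _

/-- `φ` is 1-Lipschitz. -/
lemma phi_lip (hu : Sol u) (hl : ∀ x, |u x| < 1) (x y : R3) :
    |phi u y - phi u x| ≤ eno (y - x) := by
  have hd : Differentiable ℝ (phi u) := (H88.phi_contDiff hu hl 1).differentiable (by norm_num)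
  have h1 : ∀ s : ℝ, HasDerivAt (fun s : ℝ => phi u (x + s • (y - x)))
      (dd (y - x) (phi u) (x + s • (y - x))) s := fun s => hasDerivAt_dd hd x (y - x) s
  have h2 := Convex.norm_image_sub_le_of_norm_hasDerivWithin_le (f := fun s : ℝ => phi u (x + s • (y - x)))
    (f' := fun s => dd (y - x) (phi u) (x + s • (y - x))) (s := Set.univ) (C := eno (y - x))
    (fun s _ => (h1 s).hasDerivWithinAt) (fun s _ => abs_dd_phi_le hu hl _ _) convex_univ
    (Set.mem_univ 0) (Set.mem_univ 1)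
  simpa using h2

end Vale.Agent.P134.H821
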